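import Mathlib
import Crest.Agent.Helper84.Snaky.Defs

/-!
# S0047 (Snaky): PKG-A, the bitboard dictionary for `Crest.Agent.Helper84.Snaky.Defs`

Statements as requested by helper84 (board post #1670); the names live in the namespace
`Crest.Agent.Helper84.Snaky`.
-/

set_option autoImplicit false
set_option linter.unusedVariables false

namespace Crest.Agent.Helper84.Snaky

open Crest.Agent.Helper20.Snaky Crest.CombinatoricsR.PolyominoGame

theorem lor_eq_or (x y : ℕ) : Nat.lor x y = x ||| y := rfl

theorem shiftLeft_eq_shl (x y : ℕ) : Nat.shiftLeft x y = x <<< y := rfl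

theorem cellOf_injective {W : ℕ} (hW : 0 < W) : Function.Injective (cellOf W) := by
  intro a b h
  simp only [cellOf, Prod.mk.injEq, Nat.cast_inj] at h
  rw [← Nat.div_add_mod a W, ← Nat.div_add_mod b W, h.1, h.2]

/-- Bit `y * W + x` with `x < W` is the cell `(x, y)`. -/
theorem cellOf_mul_add {W : ℕ} {x y : ℕ} (hx : x < W) :
    cellOf W (y * W + x) = ((x : ℤ), (y : ℤ)) := by
  have hW : 0 < W := by omega
  have h1 : (y * W + x) % W = x := by
    rw [Nat.add_comm, Nat.add_mul_mod_self_right, Nat.mod_eq_of_lt hx]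
  have h2 : (y * W + x) / W = y := by
    rw [Nat.add_comm, Nat.add_mul_div_right _ _ hW, Nat.div_eq_of_lt hx, Nat.zero_add]
  simp only [cellOf, h1, h2]

theorem lt_succ_of_testBit {X c : ℕ} (h : X.testBit c = true) : c < X + 1 := by
  by_contra hc
  have h1 : X < 2 ^ c :=
    lt_of_lt_of_le X.lt_two_pow_self (Nat.pow_le_pow_right (by norm_num) (by omega))
  rw [Nat.testBit_lt_two_pow h1] at h
  exact Bool.false_ne_true h

theorem mem_cells {W : ℕ} (X : ℕ) (x : Cell) :
    x ∈ cells W X ↔ ∃ c : ℕ, X.testBit c = true ∧ cellOf W c = x := by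
  simp only [cells, Finset.mem_image, Finset.mem_filter, Finset.mem_range]
  constructor
  · rintro ⟨c, ⟨_, h⟩, rfl⟩
    exact ⟨c, h, rfl⟩
  · rintro ⟨c, h, rfl⟩
    exact ⟨c, ⟨lt_succ_of_testBit h, h⟩, rfl⟩

theorem cellOf_mem_cells {W : ℕ} (hW : 0 < W) (X c : ℕ) :
    cellOf W c ∈ cells W X ↔ X.testBit c = true := by
  constructor
  · intro h
    obtain ⟨c', h', he⟩ := (mem_cells X _).mp h
    rwa [← cellOf_injective hW he]
  · intro h
    exact (mem_cells X _).mpr ⟨c, h, rfl⟩

theorem cells_lor {W : ℕ} (X Y : ℕ) : cells W (Nat.lor X Y) = cells W X ∪ cells W Y := by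
  ext x
  simp only [mem_cells, Finset.mem_union, lor_eq_or, Nat.testBit_or, Bool.or_eq_true]
  constructor
  · rintro ⟨c, h | h, rfl⟩
    · exact Or.inl ⟨c, h, rfl⟩
    · exact Or.inr ⟨c, h, rfl⟩
  · rintro (⟨c, h, rfl⟩ | ⟨c, h, rfl⟩)
    · exact ⟨c, Or.inl h, rfl⟩
    · exact ⟨c, Or.inr h, rfl⟩

theorem testBit_one_shl (c j : ℕ) : (1 <<< c).testBit j = decide (c = j) := by
  rw [Nat.one_shiftLeft, Nat.testBit_two_pow]

theorem cells_bit {W : ℕ} (c : ℕ) : cells W (Nat.shiftLeft 1 c) = {cellOf W c} := by
  ext x
  simp only [mem_cells, shiftLeft_eq_shl, testBit_one_shl, decide_eq_true_eq,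
    Finset.mem_singleton]
  constructor
  · rintro ⟨c', rfl, rfl⟩
    rfl
  · rintro rfl
    exact ⟨c, rfl, rfl⟩

theorem testBit_of_lor_eq {X Y : ℕ} (h : Nat.lor X Y = Y) {c : ℕ} (hc : X.testBit c = true) :
    Y.testBit c = true := by
  rw [← h, lor_eq_or, Nat.testBit_or, hc]
  rfl

theorem cells_subset_of_lor {W : ℕ} {X Y : ℕ} (h : Nat.lor X Y = Y) :
    cells W X ⊆ cells W Y := by
  intro x hx
  obtain ⟨c, hc, rfl⟩ := (mem_cells X x).mp hx
  exact (mem_cells Y _).mpr ⟨c, testBit_of_lor_eq h hc, rfl⟩

theorem testBit_shl_add (k i dx : ℕ) : (k <<< i).testBit (i + dx) = k.testBit dx := by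
  rw [Nat.testBit_shiftLeft]
  simp

theorem testBit_shl_self (k i : ℕ) : (k <<< i).testBit i = k.testBit 0 := by
  have := testBit_shl_add k i 0
  rwa [Nat.add_zero] at this

/-- The bits of `baseMask W o`: bit `dy * W + dx` is set for every `(dx, dy) ∈ ocells o`. -/
theorem testBit_baseMask {W o : ℕ} {p : ℕ × ℕ} (hp : p ∈ ocells o) :
    (baseMask W o).testBit (p.2 * W + p.1) = true := by
  rcases Nat.lt_or_ge o 8 with ho | ho
  · interval_cases o
    all_goals
      simp only [ocells, List.mem_cons, List.not_mem_nil, or_false] at hp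
      rcases hp with rfl | rfl | rfl | rfl | rfl | rfl
    all_goals
      simp only [baseMask, lor_eq_or, shiftLeft_eq_shl, Nat.testBit_or, Nat.zero_mul, Nat.one_mul,
        Nat.zero_add, Nat.add_zero, testBit_shl_add, testBit_shl_self]
    all_goals
      simp only [(by decide : Nat.testBit 15 0 = true), (by decide : Nat.testBit 15 1 = true),
        (by decide : Nat.testBit 15 2 = true), (by decide : Nat.testBit 15 3 = true),
        (by decide : Nat.testBit 24 3 = true), (by decide : Nat.testBit 24 4 = true),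
        (by decide : Nat.testBit 30 1 = true), (by decide : Nat.testBit 30 2 = true),
        (by decide : Nat.testBit 30 3 = true), (by decide : Nat.testBit 30 4 = true),
        (by decide : Nat.testBit 3 0 = true), (by decide : Nat.testBit 3 1 = true),
        (by decide : Nat.testBit 1 0 = true), (by decide : Nat.testBit 2 1 = true),
        Bool.or_true, Bool.true_or]
  · obtain ⟨k, rfl⟩ : ∃ k, o = k + 8 := ⟨o - 8, by omega⟩
    simp [ocells] at hp

/-- A nonzero placement: `o < 8`, no wrap-around in `x`, and `pl W o a = baseMask W o <<< a`. -/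
theorem pl_ne_zero {W o a : ℕ} (h0 : pl W o a ≠ 0) :
    o < 8 ∧ a % W + plw o ≤ W ∧ pl W o a = baseMask W o <<< a := by
  unfold pl at h0 ⊢
  cases hc : (Nat.blt o 8 && Nat.ble (a % W + plw o) W) with
  | false =>
      rw [hc] at h0
      exact absurd rfl h0
  | true =>
      rw [Bool.and_eq_true] at hc
      refine ⟨?_, ?_, rfl⟩
      · exact Nat.blt_eq.mp hc.1
      · exact Nat.ble_eq.mp hc.2

/-- The six cells of a placement contained in the bitboard `X`. -/
theorem mem_cells_of_pl {W : ℕ} {o a X : ℕ} (h0 : pl W o a ≠ 0)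
    (hsub : Nat.lor (pl W o a) X = X) {p : ℕ × ℕ} (hp : p ∈ ocells o) (hpx : p.1 < plw o) :
    (((a % W + p.1 : ℕ) : ℤ), ((a / W + p.2 : ℕ) : ℤ)) ∈ cells W X := by
  obtain ⟨_, hs, hpl⟩ := pl_ne_zero h0
  have hb : X.testBit (a + (p.2 * W + p.1)) = true := by
    refine testBit_of_lor_eq hsub ?_
    rw [hpl, testBit_shl_add]
    exact testBit_baseMask hp
  have hx : a % W + p.1 < W := by omega
  have he : a + (p.2 * W + p.1) = (a / W + p.2) * W + (a % W + p.1) := by
    nlinarith [Nat.div_add_mod a W, Nat.mul_comm W (a / W)]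
  rw [he] at hb
  have := (mem_cells (W := W) X (cellOf W ((a / W + p.2) * W + (a % W + p.1)))).mpr ⟨_, hb, rfl⟩
  rwa [cellOf_mul_add hx] at this

theorem containsCopy_of_pl {W : ℕ} (hW : 0 < W) {o a X : ℕ} (h0 : pl W o a ≠ 0)
    (hsub : Nat.lor (pl W o a) X = X) :
    Crest.CombinatoricsR.PolyominoGame.ContainsCopy (↑(cells W X) : Set Cell) := by
  have key : ∀ p ∈ ocells o, p.1 < plw o →
      (((a % W + p.1 : ℕ) : ℤ), ((a / W + p.2 : ℕ) : ℤ)) ∈ cells W X :=
    fun p hp hpx => mem_cells_of_pl h0 hsub hp hpx
  have ho : o < 8 := (pl_ne_zero h0).1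
  clear h0 hsub
  interval_cases o
  · refine ⟨(((a % W : ℕ) : ℤ) + 0, ((a / W : ℕ) : ℤ) + 0), 1, 1, Or.inl rfl, Or.inl rfl,
      Or.inl ?_⟩
    intro p hp
    simp only [snaky, Finset.mem_insert, Finset.mem_singleton] at hp
    rcases hp with rfl | rfl | rfl | rfl | rfl | rfl
    · refine Finset.mem_coe.mpr ?_
      convert key (0, 0) (by simp [ocells]) (by decide) using 2 <;> (push_cast; ring)
    · refine Finset.mem_coe.mpr ?_
      convert key (1, 0) (by simp [ocells]) (by decide) using 2 <;> (push_cast; ring)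
    · refine Finset.mem_coe.mpr ?_
      convert key (2, 0) (by simp [ocells]) (by decide) using 2 <;> (push_cast; ring)
    · refine Finset.mem_coe.mpr ?_
      convert key (3, 0) (by simp [ocells]) (by decide) using 2 <;> (push_cast; ring)
    · refine Finset.mem_coe.mpr ?_
      convert key (3, 1) (by simp [ocells]) (by decide) using 2 <;> (push_cast; ring)
    · refine Finset.mem_coe.mpr ?_
      convert key (4, 1) (by simp [ocells]) (by decide) using 2 <;> (push_cast; ring)
  · refine ⟨(((a % W : ℕ) : ℤ) + 0, ((a / W : ℕ) : ℤ) + 1), 1, -1, Or.inl rfl, Or.inr rfl,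
      Or.inl ?_⟩
    intro p hp
    simp only [snaky, Finset.mem_insert, Finset.mem_singleton] at hp
    rcases hp with rfl | rfl | rfl | rfl | rfl | rfl
    · refine Finset.mem_coe.mpr ?_
      convert key (0, 1) (by simp [ocells]) (by decide) using 2 <;> (push_cast; ring)
    · refine Finset.mem_coe.mpr ?_
      convert key (1, 1) (by simp [ocells]) (by decide) using 2 <;> (push_cast; ring)
    · refine Finset.mem_coe.mpr ?_
      convert key (2, 1) (by simp [ocells]) (by decide) using 2 <;> (push_cast; ring)
    · refine Finset.mem_coe.mpr ?_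
      convert key (3, 1) (by simp [ocells]) (by decide) using 2 <;> (push_cast; ring)
    · refine Finset.mem_coe.mpr ?_
      convert key (3, 0) (by simp [ocells]) (by decide) using 2 <;> (push_cast; ring)
    · refine Finset.mem_coe.mpr ?_
      convert key (4, 0) (by simp [ocells]) (by decide) using 2 <;> (push_cast; ring)
  · refine ⟨(((a % W : ℕ) : ℤ) + 4, ((a / W : ℕ) : ℤ) + 0), -1, 1, Or.inr rfl, Or.inl rfl,
      Or.inl ?_⟩
    intro p hp
    simp only [snaky, Finset.mem_insert, Finset.mem_singleton] at hp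
    rcases hp with rfl | rfl | rfl | rfl | rfl | rfl
    · refine Finset.mem_coe.mpr ?_
      convert key (4, 0) (by simp [ocells]) (by decide) using 2 <;> (push_cast; ring)
    · refine Finset.mem_coe.mpr ?_
      convert key (3, 0) (by simp [ocells]) (by decide) using 2 <;> (push_cast; ring)
    · refine Finset.mem_coe.mpr ?_
      convert key (2, 0) (by simp [ocells]) (by decide) using 2 <;> (push_cast; ring)
    · refine Finset.mem_coe.mpr ?_
      convert key (1, 0) (by simp [ocells]) (by decide) using 2 <;> (push_cast; ring)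
    · refine Finset.mem_coe.mpr ?_
      convert key (1, 1) (by simp [ocells]) (by decide) using 2 <;> (push_cast; ring)
    · refine Finset.mem_coe.mpr ?_
      convert key (0, 1) (by simp [ocells]) (by decide) using 2 <;> (push_cast; ring)
  · refine ⟨(((a % W : ℕ) : ℤ) + 4, ((a / W : ℕ) : ℤ) + 1), -1, -1, Or.inr rfl, Or.inr rfl,
      Or.inl ?_⟩
    intro p hp
    simp only [snaky, Finset.mem_insert, Finset.mem_singleton] at hp
    rcases hp with rfl | rfl | rfl | rfl | rfl | rfl
    · refine Finset.mem_coe.mpr ?_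
      convert key (4, 1) (by simp [ocells]) (by decide) using 2 <;> (push_cast; ring)
    · refine Finset.mem_coe.mpr ?_
      convert key (3, 1) (by simp [ocells]) (by decide) using 2 <;> (push_cast; ring)
    · refine Finset.mem_coe.mpr ?_
      convert key (2, 1) (by simp [ocells]) (by decide) using 2 <;> (push_cast; ring)
    · refine Finset.mem_coe.mpr ?_
      convert key (1, 1) (by simp [ocells]) (by decide) using 2 <;> (push_cast; ring)
    · refine Finset.mem_coe.mpr ?_
      convert key (1, 0) (by simp [ocells]) (by decide) using 2 <;> (push_cast; ring)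
    · refine Finset.mem_coe.mpr ?_
      convert key (0, 0) (by simp [ocells]) (by decide) using 2 <;> (push_cast; ring)
  · refine ⟨(((a % W : ℕ) : ℤ) + 0, ((a / W : ℕ) : ℤ) + 0), 1, 1, Or.inl rfl, Or.inl rfl,
      Or.inr ?_⟩
    intro p hp
    simp only [snaky, Finset.mem_insert, Finset.mem_singleton] at hp
    rcases hp with rfl | rfl | rfl | rfl | rfl | rfl
    · refine Finset.mem_coe.mpr ?_
      convert key (0, 0) (by simp [ocells]) (by decide) using 2 <;> (push_cast; ring)
    · refine Finset.mem_coe.mpr ?_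
      convert key (0, 1) (by simp [ocells]) (by decide) using 2 <;> (push_cast; ring)
    · refine Finset.mem_coe.mpr ?_
      convert key (0, 2) (by simp [ocells]) (by decide) using 2 <;> (push_cast; ring)
    · refine Finset.mem_coe.mpr ?_
      convert key (0, 3) (by simp [ocells]) (by decide) using 2 <;> (push_cast; ring)
    · refine Finset.mem_coe.mpr ?_
      convert key (1, 3) (by simp [ocells]) (by decide) using 2 <;> (push_cast; ring)
    · refine Finset.mem_coe.mpr ?_
      convert key (1, 4) (by simp [ocells]) (by decide) using 2 <;> (push_cast; ring)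
  · refine ⟨(((a % W : ℕ) : ℤ) + 0, ((a / W : ℕ) : ℤ) + 4), 1, -1, Or.inl rfl, Or.inr rfl,
      Or.inr ?_⟩
    intro p hp
    simp only [snaky, Finset.mem_insert, Finset.mem_singleton] at hp
    rcases hp with rfl | rfl | rfl | rfl | rfl | rfl
    · refine Finset.mem_coe.mpr ?_
      convert key (0, 4) (by simp [ocells]) (by decide) using 2 <;> (push_cast; ring)
    · refine Finset.mem_coe.mpr ?_
      convert key (0, 3) (by simp [ocells]) (by decide) using 2 <;> (push_cast; ring)
    · refine Finset.mem_coe.mpr ?_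
      convert key (0, 2) (by simp [ocells]) (by decide) using 2 <;> (push_cast; ring)
    · refine Finset.mem_coe.mpr ?_
      convert key (0, 1) (by simp [ocells]) (by decide) using 2 <;> (push_cast; ring)
    · refine Finset.mem_coe.mpr ?_
      convert key (1, 1) (by simp [ocells]) (by decide) using 2 <;> (push_cast; ring)
    · refine Finset.mem_coe.mpr ?_
      convert key (1, 0) (by simp [ocells]) (by decide) using 2 <;> (push_cast; ring)
  · refine ⟨(((a % W : ℕ) : ℤ) + 1, ((a / W : ℕ) : ℤ) + 0), -1, 1, Or.inr rfl, Or.inl rfl,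
      Or.inr ?_⟩
    intro p hp
    simp only [snaky, Finset.mem_insert, Finset.mem_singleton] at hp
    rcases hp with rfl | rfl | rfl | rfl | rfl | rfl
    · refine Finset.mem_coe.mpr ?_
      convert key (1, 0) (by simp [ocells]) (by decide) using 2 <;> (push_cast; ring)
    · refine Finset.mem_coe.mpr ?_
      convert key (1, 1) (by simp [ocells]) (by decide) using 2 <;> (push_cast; ring)
    · refine Finset.mem_coe.mpr ?_
      convert key (1, 2) (by simp [ocells]) (by decide) using 2 <;> (push_cast; ring)
    · refine Finset.mem_coe.mpr ?_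
      convert key (1, 3) (by simp [ocells]) (by decide) using 2 <;> (push_cast; ring)
    · refine Finset.mem_coe.mpr ?_
      convert key (0, 3) (by simp [ocells]) (by decide) using 2 <;> (push_cast; ring)
    · refine Finset.mem_coe.mpr ?_
      convert key (0, 4) (by simp [ocells]) (by decide) using 2 <;> (push_cast; ring)
  · refine ⟨(((a % W : ℕ) : ℤ) + 1, ((a / W : ℕ) : ℤ) + 4), -1, -1, Or.inr rfl, Or.inr rfl,
      Or.inr ?_⟩
    intro p hp
    simp only [snaky, Finset.mem_insert, Finset.mem_singleton] at hp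
    rcases hp with rfl | rfl | rfl | rfl | rfl | rfl
    · refine Finset.mem_coe.mpr ?_
      convert key (1, 4) (by simp [ocells]) (by decide) using 2 <;> (push_cast; ring)
    · refine Finset.mem_coe.mpr ?_
      convert key (1, 3) (by simp [ocells]) (by decide) using 2 <;> (push_cast; ring)
    · refine Finset.mem_coe.mpr ?_
      convert key (1, 2) (by simp [ocells]) (by decide) using 2 <;> (push_cast; ring)
    · refine Finset.mem_coe.mpr ?_
      convert key (1, 1) (by simp [ocells]) (by decide) using 2 <;> (push_cast; ring)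
    · refine Finset.mem_coe.mpr ?_
      convert key (0, 1) (by simp [ocells]) (by decide) using 2 <;> (push_cast; ring)
    · refine Finset.mem_coe.mpr ?_
      convert key (0, 0) (by simp [ocells]) (by decide) using 2 <;> (push_cast; ring)


end Crest.Agent.Helper84.Snaky
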