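import Mathlib
import Crest.Agent.Helper20.Snaky.Bridge

/-!
# S0047 (Snaky): bitboard ↔ `Finset (ℤ × ℤ)` dictionary

A board window of width `W` is coded by natural numbers: bit `c = y * W + x` (`x < W`) is the
cell `(x - ox, y - oy)`.  (Rows are unbounded: only the column wrap-around matters.)

* `cellOf W ox oy c`, `cells W ox oy M`.
* `mem_cells`, `cellOf_mem_cells`, `cells_zero`, `cells_or`, `cells_and`, `cells_bit`,
  `cells_insert`, `cells_subset`, `cells_subset_iff`, `cells_disjoint`, `cells_sdiff`, ...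
* Snaky placements: `snakyCells o` (the six cells of orientation `o < 8`, normalised to the
  minimal corner), `bw o`, `bh o`, `baseMask W o`, and `containsCopy_cells`.
-/

set_option autoImplicit false

namespace Crest.Agent.Helper20.Snaky

open Crest.CombinatoricsR.PolyominoGame

/-- The cell coded by bit `c` of a bitboard of width `W` with offset `(ox, oy)`. -/
def cellOf (W : ℕ) (ox oy : ℤ) (c : ℕ) : Cell :=
  (((c % W : ℕ) : ℤ) - ox, ((c / W : ℕ) : ℤ) - oy)

theorem cellOf_injective (W : ℕ) (ox oy : ℤ) :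
    Function.Injective (cellOf W ox oy) := by
  intro a b h
  simp only [cellOf, Prod.mk.injEq, sub_left_inj, Nat.cast_inj] at h
  rw [← Nat.div_add_mod a W, ← Nat.div_add_mod b W, h.1, h.2]

theorem cellOf_inj {W : ℕ} {ox oy : ℤ} {a b : ℕ} :
    cellOf W ox oy a = cellOf W ox oy b ↔ a = b :=
  (cellOf_injective W ox oy).eq_iff

/-- Bit `y * W + x` with `x < W` is the cell `(x - ox, y - oy)`. -/
theorem cellOf_mul_add {W : ℕ} (ox oy : ℤ) {x y : ℕ} (hx : x < W) :
    cellOf W ox oy (y * W + x) = ((x : ℤ) - ox, (y : ℤ) - oy) := by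
  have hW : 0 < W := by omega
  have h1 : (y * W + x) % W = x := by
    rw [Nat.add_comm, Nat.add_mul_mod_self_right, Nat.mod_eq_of_lt hx]
  have h2 : (y * W + x) / W = y := by
    rw [Nat.add_comm, Nat.add_mul_div_right _ _ hW, Nat.div_eq_of_lt hx, Nat.zero_add]
  simp only [cellOf, h1, h2]

/-- The finite set of cells coded by the bitboard `M`. -/
def cells (W : ℕ) (ox oy : ℤ) (M : ℕ) : Finset Cell :=
  ((Finset.range M).filter (fun c => M.testBit c = true)).image (cellOf W ox oy)

theorem lt_of_testBit {M c : ℕ} (h : M.testBit c = true) : c < M := by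
  by_contra hc
  have h1 : M < 2 ^ c := lt_of_lt_of_le M.lt_two_pow_self (Nat.pow_le_pow_right (by norm_num) (by omega))
  rw [Nat.testBit_lt_two_pow h1] at h
  exact Bool.false_ne_true h

theorem mem_cells {W : ℕ} {ox oy : ℤ} {M : ℕ} {x : Cell} :
    x ∈ cells W ox oy M ↔ ∃ c, M.testBit c = true ∧ cellOf W ox oy c = x := by
  simp only [cells, Finset.mem_image, Finset.mem_filter, Finset.mem_range]
  constructor
  · rintro ⟨c, ⟨_, h⟩, rfl⟩
    exact ⟨c, h, rfl⟩
  · rintro ⟨c, h, rfl⟩
    exact ⟨c, ⟨lt_of_testBit h, h⟩, rfl⟩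

theorem cellOf_mem_cells_of_testBit {W : ℕ} {ox oy : ℤ} {M c : ℕ} (h : M.testBit c = true) :
    cellOf W ox oy c ∈ cells W ox oy M :=
  mem_cells.mpr ⟨c, h, rfl⟩

/-- Membership of a coded cell is a bit test. -/
theorem cellOf_mem_cells {W : ℕ} {ox oy : ℤ} {M c : ℕ} :
    cellOf W ox oy c ∈ cells W ox oy M ↔ M.testBit c = true := by
  constructor
  · intro h
    obtain ⟨c', h', he⟩ := mem_cells.mp h
    rwa [← cellOf_injective W ox oy he]
  · exact cellOf_mem_cells_of_testBit

theorem cellOf_notMem_cells {W : ℕ} {ox oy : ℤ} {M c : ℕ} :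
    cellOf W ox oy c ∉ cells W ox oy M ↔ M.testBit c = false := by
  rw [cellOf_mem_cells, Bool.not_eq_true]

@[simp] theorem cells_zero (W : ℕ) (ox oy : ℤ) : cells W ox oy 0 = ∅ := by
  ext x
  simp [mem_cells]

theorem cells_or (W : ℕ) (ox oy : ℤ) (M N : ℕ) :
    cells W ox oy (M ||| N) = cells W ox oy M ∪ cells W ox oy N := by
  ext x
  simp only [mem_cells, Finset.mem_union, Nat.testBit_or, Bool.or_eq_true]
  constructor
  · rintro ⟨c, h | h, rfl⟩
    · exact Or.inl ⟨c, h, rfl⟩
    · exact Or.inr ⟨c, h, rfl⟩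
  · rintro (⟨c, h, rfl⟩ | ⟨c, h, rfl⟩)
    · exact ⟨c, Or.inl h, rfl⟩
    · exact ⟨c, Or.inr h, rfl⟩

theorem cells_and (W : ℕ) (ox oy : ℤ) (M N : ℕ) :
    cells W ox oy (M &&& N) = cells W ox oy M ∩ cells W ox oy N := by
  ext x
  simp only [mem_cells, Finset.mem_inter, Nat.testBit_and, Bool.and_eq_true]
  constructor
  · rintro ⟨c, ⟨h1, h2⟩, rfl⟩
    exact ⟨⟨c, h1, rfl⟩, ⟨c, h2, rfl⟩⟩
  · rintro ⟨⟨c, h1, rfl⟩, ⟨c', h2, he⟩⟩
    rw [cellOf_injective W ox oy he] at h2
    exact ⟨c, ⟨h1, h2⟩, rfl⟩

/-- `M ^^^ (M &&& N)` codes the set difference. -/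
theorem cells_sdiff (W : ℕ) (ox oy : ℤ) (M N : ℕ) :
    cells W ox oy (M ^^^ (M &&& N)) = cells W ox oy M \ cells W ox oy N := by
  ext x
  simp only [mem_cells, Finset.mem_sdiff, Nat.testBit_xor, Nat.testBit_and, not_exists, not_and]
  constructor
  · rintro ⟨c, h, rfl⟩
    have h1 : M.testBit c = true := by
      cases hM : M.testBit c <;> simp [hM] at h ⊢
    have h2 : N.testBit c = false := by
      cases hN : N.testBit c <;> simp [h1, hN] at h ⊢
    refine ⟨⟨c, h1, rfl⟩, fun c' h' he => ?_⟩
    rw [cellOf_injective W ox oy he, h2] at h'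
    exact Bool.false_ne_true h'
  · rintro ⟨⟨c, h1, rfl⟩, h2⟩
    refine ⟨c, ?_, rfl⟩
    have h3 : N.testBit c = false := by
      cases hN : N.testBit c
      · rfl
      · exact absurd rfl (h2 c hN)
    simp [h1, h3]

theorem testBit_one_shiftLeft (c j : ℕ) : (1 <<< c).testBit j = decide (c = j) := by
  rw [Nat.one_shiftLeft, Nat.testBit_two_pow]

@[simp] theorem cells_bit (W : ℕ) (ox oy : ℤ) (c : ℕ) :
    cells W ox oy (1 <<< c) = {cellOf W ox oy c} := by
  ext x
  simp only [mem_cells, testBit_one_shiftLeft, decide_eq_true_eq, Finset.mem_singleton]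
  constructor
  · rintro ⟨c', rfl, rfl⟩
    rfl
  · rintro rfl
    exact ⟨c, rfl, rfl⟩

/-- Setting a bit inserts the cell. -/
theorem cells_insert (W : ℕ) (ox oy : ℤ) (M c : ℕ) :
    cells W ox oy (M ||| 1 <<< c) = insert (cellOf W ox oy c) (cells W ox oy M) := by
  rw [cells_or, cells_bit, Finset.union_comm, Finset.insert_eq]

theorem cells_insert' (W : ℕ) (ox oy : ℤ) (M c : ℕ) :
    insert (cellOf W ox oy c) (cells W ox oy M) = cells W ox oy (M ||| 1 <<< c) :=
  (cells_insert W ox oy M c).symm

theorem testBit_imp_of_and_eq {M N : ℕ} (h : M &&& N = M) {c : ℕ} (hc : M.testBit c = true) :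
    N.testBit c = true := by
  rw [← h, Nat.testBit_and, Bool.and_eq_true] at hc
  exact hc.2

/-- Subset from a bitboard identity. -/
theorem cells_subset {W : ℕ} {ox oy : ℤ} {M N : ℕ} (h : M &&& N = M) :
    cells W ox oy M ⊆ cells W ox oy N := by
  intro x hx
  obtain ⟨c, hc, rfl⟩ := mem_cells.mp hx
  exact cellOf_mem_cells_of_testBit (testBit_imp_of_and_eq h hc)

theorem cells_subset_iff {W : ℕ} {ox oy : ℤ} {M N : ℕ} :
    cells W ox oy M ⊆ cells W ox oy N ↔ M &&& N = M := by
  refine ⟨fun h => ?_, cells_subset⟩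
  apply Nat.eq_of_testBit_eq
  intro c
  rw [Nat.testBit_and]
  cases hM : M.testBit c
  · rfl
  · have := cellOf_mem_cells.mp (h (cellOf_mem_cells_of_testBit (W := W) (ox := ox)
      (oy := oy) hM))
    rw [this]
    rfl

theorem cells_injective (W : ℕ) (ox oy : ℤ) : Function.Injective (cells W ox oy) := by
  intro M N h
  apply Nat.eq_of_testBit_eq
  intro c
  have h1 := cellOf_mem_cells (W := W) (ox := ox) (oy := oy) (M := M) (c := c)
  have h2 := cellOf_mem_cells (W := W) (ox := ox) (oy := oy) (M := N) (c := c)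
  rw [h] at h1
  cases hM : M.testBit c <;> cases hN : N.testBit c <;> simp_all

/-- Disjointness from a bitboard identity. -/
theorem notMem_cells_of_and_eq_zero {W : ℕ} {ox oy : ℤ} {M N : ℕ}
    (h : M &&& N = 0) {x : Cell} (hx : x ∈ cells W ox oy M) : x ∉ cells W ox oy N := by
  intro hx'
  have : x ∈ cells W ox oy (M &&& N) := by
    rw [cells_and]
    exact Finset.mem_inter.mpr ⟨hx, hx'⟩
  rw [h, cells_zero] at this
  exact absurd this (Finset.notMem_empty x)

theorem cells_disjoint {W : ℕ} {ox oy : ℤ} {M N : ℕ} (h : M &&& N = 0) :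
    Disjoint (cells W ox oy M) (cells W ox oy N) :=
  Finset.disjoint_left.mpr (fun _ hx => notMem_cells_of_and_eq_zero h hx)

/-- Quantification over the cells of a bitboard is quantification over its set bits. -/
theorem forall_mem_cells {W : ℕ} {ox oy : ℤ} {M : ℕ} {P : Cell → Prop} :
    (∀ x ∈ cells W ox oy M, P x) ↔ ∀ c, M.testBit c = true → P (cellOf W ox oy c) := by
  constructor
  · intro h c hc
    exact h _ (cellOf_mem_cells_of_testBit hc)
  · intro h x hx
    obtain ⟨c, hc, rfl⟩ := mem_cells.mp hx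
    exact h c hc

/-- Set bits of a bitboard below `2 ^ n` have index below `n`. -/
theorem lt_of_testBit_of_lt_two_pow {M n c : ℕ} (hM : M < 2 ^ n) (h : M.testBit c = true) :
    c < n := by
  by_contra hc
  have h1 : M < 2 ^ c := lt_of_lt_of_le hM (Nat.pow_le_pow_right (by norm_num) (by omega))
  rw [Nat.testBit_lt_two_pow h1] at h
  exact Bool.false_ne_true h

/-- Membership of the window cell `(x, y)` (`x < W`) is the bit test at `y * W + x`. -/
theorem mk_mem_cells {W : ℕ} {ox oy : ℤ} {M x y : ℕ} (hx : x < W) :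
    ((x : ℤ) - ox, (y : ℤ) - oy) ∈ cells W ox oy M ↔ M.testBit (y * W + x) = true := by
  rw [← cellOf_mul_add ox oy hx, cellOf_mem_cells]

/-- The full window of width `W` and height `H`, as a bitboard, is a rectangle. -/
theorem mem_cells_full {W H : ℕ} {ox oy : ℤ} {x : Cell} :
    x ∈ cells W ox oy (2 ^ (W * H) - 1) ↔
      (0 ≤ x.1 + ox ∧ x.1 + ox < W ∧ 0 ≤ x.2 + oy ∧ x.2 + oy < H) := by
  simp only [mem_cells, Nat.testBit_two_pow_sub_one, decide_eq_true_eq]
  constructor
  · rintro ⟨c, hc, rfl⟩
    have hW : 0 < W := by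
      rcases Nat.eq_zero_or_pos W with h | h
      · rw [h, Nat.zero_mul] at hc
        omega
      · exact h
    have h1 : c % W < W := Nat.mod_lt _ hW
    have h2 : c / W < H := Nat.div_lt_of_lt_mul hc
    simp only [cellOf, sub_add_cancel]
    exact ⟨by positivity, by exact_mod_cast h1, by positivity, by exact_mod_cast h2⟩
  · rintro ⟨h1, h2, h3, h4⟩
    obtain ⟨a, ha⟩ := Int.eq_ofNat_of_zero_le h1
    obtain ⟨b, hb⟩ := Int.eq_ofNat_of_zero_le h3
    have ha' : a < W := by rw [ha] at h2; exact_mod_cast h2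
    have hb' : b < H := by rw [hb] at h4; exact_mod_cast h4
    refine ⟨b * W + a, ?_, ?_⟩
    · calc b * W + a < b * W + W := by omega
        _ = W * (b + 1) := by ring
        _ ≤ W * H := Nat.mul_le_mul_left W (by omega)
    · rw [cellOf_mul_add ox oy ha']
      ext
      · simp only; omega
      · simp only; omega

/-- Every bitboard below `2 ^ (W * H)` lies in the full window. -/
theorem cells_subset_full {W H : ℕ} {ox oy : ℤ} {M : ℕ} (hM : M < 2 ^ (W * H)) :
    cells W ox oy M ⊆ cells W ox oy (2 ^ (W * H) - 1) := by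
  intro x hx
  obtain ⟨c, hc, rfl⟩ := mem_cells.mp hx
  refine cellOf_mem_cells_of_testBit ?_
  rw [Nat.testBit_two_pow_sub_one, decide_eq_true_eq]
  exact lt_of_testBit_of_lt_two_pow hM hc

/-! ### Snaky placements -/

/-- The six cells `(x, y)` of Snaky in orientation `o = 4 * swap + 2 * [ε₁ = -1] + [ε₂ = -1]`,
translated so that the minimal corner of the bounding box is `(0, 0)`. -/
def snakyCells : ℕ → List (ℕ × ℕ)
  | 0 => [(0, 0), (1, 0), (2, 0), (3, 0), (3, 1), (4, 1)]
  | 1 => [(0, 1), (1, 1), (2, 1), (3, 1), (3, 0), (4, 0)]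
  | 2 => [(4, 0), (3, 0), (2, 0), (1, 0), (1, 1), (0, 1)]
  | 3 => [(4, 1), (3, 1), (2, 1), (1, 1), (1, 0), (0, 0)]
  | 4 => [(0, 0), (0, 1), (0, 2), (0, 3), (1, 3), (1, 4)]
  | 5 => [(0, 4), (0, 3), (0, 2), (0, 1), (1, 1), (1, 0)]
  | 6 => [(1, 0), (1, 1), (1, 2), (1, 3), (0, 3), (0, 4)]
  | 7 => [(1, 4), (1, 3), (1, 2), (1, 1), (0, 1), (0, 0)]
  | _ => []

/-- Width of the bounding box of orientation `o`. -/
def bw (o : ℕ) : ℕ := if o < 4 then 5 else 2

/-- Height of the bounding box of orientation `o`. -/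
def bh (o : ℕ) : ℕ := if o < 4 then 2 else 5

/-- Bitboard of a list of window cells `(x, y)`. -/
def maskOf (W : ℕ) (l : List (ℕ × ℕ)) : ℕ :=
  l.foldr (fun p acc => acc ||| 1 <<< (p.2 * W + p.1)) 0

/-- Bitboard of Snaky in orientation `o`, anchored at bit `0`. -/
def baseMask (W o : ℕ) : ℕ := maskOf W (snakyCells o)

theorem testBit_maskOf {W : ℕ} {l : List (ℕ × ℕ)} {p : ℕ × ℕ} (hp : p ∈ l) :
    (maskOf W l).testBit (p.2 * W + p.1) = true := by
  induction l with
  | nil => simp at hp
  | cons a l ih =>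
      simp only [maskOf, List.foldr_cons, Nat.testBit_or, Bool.or_eq_true]
      rcases List.mem_cons.mp hp with rfl | h
      · right
        rw [testBit_one_shiftLeft]
        simp
      · left
        exact ih h

/-- A placement inside the bitboard gives the corresponding window cells. -/
theorem mem_cells_of_placement {W : ℕ} {ox oy : ℤ} {M o s : ℕ}
    (hs : s % W + bw o ≤ W)
    (h : (baseMask W o <<< s) &&& M = baseMask W o <<< s)
    {p : ℕ × ℕ} (hp : p ∈ snakyCells o) (hpx : p.1 < bw o) :
    (((s % W + p.1 : ℕ) : ℤ) - ox, ((s / W + p.2 : ℕ) : ℤ) - oy) ∈ cells W ox oy M := by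
  have hb : M.testBit (s + (p.2 * W + p.1)) = true := by
    refine testBit_imp_of_and_eq h ?_
    rw [Nat.testBit_shiftLeft]
    simp only [ge_iff_le, Nat.le_add_right, decide_true, Nat.add_sub_cancel_left, Bool.true_and]
    exact testBit_maskOf hp
  have hx : s % W + p.1 < W := by omega
  have he : s + (p.2 * W + p.1) = (s / W + p.2) * W + (s % W + p.1) := by
    have := Nat.div_add_mod s W
    nlinarith [Nat.div_add_mod s W, Nat.mul_comm W (s / W)]
  rw [he] at hb
  have := cellOf_mem_cells_of_testBit (W := W) (ox := ox) (oy := oy) hb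
  rwa [cellOf_mul_add ox oy hx] at this

/-- **Copy rule.** If the placement of Snaky with orientation `o < 8` anchored at bit `s`
(no column wrap-around) is contained in the bitboard `M`, then `cells M` contains a copy of
Snaky. -/
theorem containsCopy_cells {W : ℕ} (ox oy : ℤ) {M : ℕ} (o s : ℕ) (ho : o < 8)
    (hs : s % W + bw o ≤ W)
    (h : (baseMask W o <<< s) &&& M = baseMask W o <<< s) :
    ContainsCopy (↑(cells W ox oy M) : Set Cell) := by
  have key : ∀ p ∈ snakyCells o, p.1 < bw o →
      (((s % W + p.1 : ℕ) : ℤ) - ox, ((s / W + p.2 : ℕ) : ℤ) - oy) ∈ cells W ox oy M :=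
    fun p hp hpx => mem_cells_of_placement hs h hp hpx
  interval_cases o
  · refine ⟨(((s % W : ℕ) : ℤ) + 0 - ox, ((s / W : ℕ) : ℤ) + 0 - oy), 1, 1, Or.inl rfl, Or.inl rfl,
      Or.inl ?_⟩
    intro p hp
    simp only [snaky, Finset.mem_insert, Finset.mem_singleton] at hp
    rcases hp with rfl | rfl | rfl | rfl | rfl | rfl
    · refine Finset.mem_coe.mpr ?_
      convert key (0, 0) (by simp [snakyCells]) (by simp [bw]) using 2 <;> (push_cast; ring)
    · refine Finset.mem_coe.mpr ?_
      convert key (1, 0) (by simp [snakyCells]) (by simp [bw]) using 2 <;> (push_cast; ring)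
    · refine Finset.mem_coe.mpr ?_
      convert key (2, 0) (by simp [snakyCells]) (by simp [bw]) using 2 <;> (push_cast; ring)
    · refine Finset.mem_coe.mpr ?_
      convert key (3, 0) (by simp [snakyCells]) (by simp [bw]) using 2 <;> (push_cast; ring)
    · refine Finset.mem_coe.mpr ?_
      convert key (3, 1) (by simp [snakyCells]) (by simp [bw]) using 2 <;> (push_cast; ring)
    · refine Finset.mem_coe.mpr ?_
      convert key (4, 1) (by simp [snakyCells]) (by simp [bw]) using 2 <;> (push_cast; ring)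
  · refine ⟨(((s % W : ℕ) : ℤ) + 0 - ox, ((s / W : ℕ) : ℤ) + 1 - oy), 1, -1, Or.inl rfl, Or.inr rfl,
      Or.inl ?_⟩
    intro p hp
    simp only [snaky, Finset.mem_insert, Finset.mem_singleton] at hp
    rcases hp with rfl | rfl | rfl | rfl | rfl | rfl
    · refine Finset.mem_coe.mpr ?_
      convert key (0, 1) (by simp [snakyCells]) (by simp [bw]) using 2 <;> (push_cast; ring)
    · refine Finset.mem_coe.mpr ?_
      convert key (1, 1) (by simp [snakyCells]) (by simp [bw]) using 2 <;> (push_cast; ring)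
    · refine Finset.mem_coe.mpr ?_
      convert key (2, 1) (by simp [snakyCells]) (by simp [bw]) using 2 <;> (push_cast; ring)
    · refine Finset.mem_coe.mpr ?_
      convert key (3, 1) (by simp [snakyCells]) (by simp [bw]) using 2 <;> (push_cast; ring)
    · refine Finset.mem_coe.mpr ?_
      convert key (3, 0) (by simp [snakyCells]) (by simp [bw]) using 2 <;> (push_cast; ring)
    · refine Finset.mem_coe.mpr ?_
      convert key (4, 0) (by simp [snakyCells]) (by simp [bw]) using 2 <;> (push_cast; ring)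
  · refine ⟨(((s % W : ℕ) : ℤ) + 4 - ox, ((s / W : ℕ) : ℤ) + 0 - oy), -1, 1, Or.inr rfl, Or.inl rfl,
      Or.inl ?_⟩
    intro p hp
    simp only [snaky, Finset.mem_insert, Finset.mem_singleton] at hp
    rcases hp with rfl | rfl | rfl | rfl | rfl | rfl
    · refine Finset.mem_coe.mpr ?_
      convert key (4, 0) (by simp [snakyCells]) (by simp [bw]) using 2 <;> (push_cast; ring)
    · refine Finset.mem_coe.mpr ?_
      convert key (3, 0) (by simp [snakyCells]) (by simp [bw]) using 2 <;> (push_cast; ring)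
    · refine Finset.mem_coe.mpr ?_
      convert key (2, 0) (by simp [snakyCells]) (by simp [bw]) using 2 <;> (push_cast; ring)
    · refine Finset.mem_coe.mpr ?_
      convert key (1, 0) (by simp [snakyCells]) (by simp [bw]) using 2 <;> (push_cast; ring)
    · refine Finset.mem_coe.mpr ?_
      convert key (1, 1) (by simp [snakyCells]) (by simp [bw]) using 2 <;> (push_cast; ring)
    · refine Finset.mem_coe.mpr ?_
      convert key (0, 1) (by simp [snakyCells]) (by simp [bw]) using 2 <;> (push_cast; ring)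
  · refine ⟨(((s % W : ℕ) : ℤ) + 4 - ox, ((s / W : ℕ) : ℤ) + 1 - oy), -1, -1, Or.inr rfl, Or.inr rfl,
      Or.inl ?_⟩
    intro p hp
    simp only [snaky, Finset.mem_insert, Finset.mem_singleton] at hp
    rcases hp with rfl | rfl | rfl | rfl | rfl | rfl
    · refine Finset.mem_coe.mpr ?_
      convert key (4, 1) (by simp [snakyCells]) (by simp [bw]) using 2 <;> (push_cast; ring)
    · refine Finset.mem_coe.mpr ?_
      convert key (3, 1) (by simp [snakyCells]) (by simp [bw]) using 2 <;> (push_cast; ring)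
    · refine Finset.mem_coe.mpr ?_
      convert key (2, 1) (by simp [snakyCells]) (by simp [bw]) using 2 <;> (push_cast; ring)
    · refine Finset.mem_coe.mpr ?_
      convert key (1, 1) (by simp [snakyCells]) (by simp [bw]) using 2 <;> (push_cast; ring)
    · refine Finset.mem_coe.mpr ?_
      convert key (1, 0) (by simp [snakyCells]) (by simp [bw]) using 2 <;> (push_cast; ring)
    · refine Finset.mem_coe.mpr ?_
      convert key (0, 0) (by simp [snakyCells]) (by simp [bw]) using 2 <;> (push_cast; ring)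
  · refine ⟨(((s % W : ℕ) : ℤ) + 0 - ox, ((s / W : ℕ) : ℤ) + 0 - oy), 1, 1, Or.inl rfl, Or.inl rfl,
      Or.inr ?_⟩
    intro p hp
    simp only [snaky, Finset.mem_insert, Finset.mem_singleton] at hp
    rcases hp with rfl | rfl | rfl | rfl | rfl | rfl
    · refine Finset.mem_coe.mpr ?_
      convert key (0, 0) (by simp [snakyCells]) (by simp [bw]) using 2 <;> (push_cast; ring)
    · refine Finset.mem_coe.mpr ?_
      convert key (0, 1) (by simp [snakyCells]) (by simp [bw]) using 2 <;> (push_cast; ring)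
    · refine Finset.mem_coe.mpr ?_
      convert key (0, 2) (by simp [snakyCells]) (by simp [bw]) using 2 <;> (push_cast; ring)
    · refine Finset.mem_coe.mpr ?_
      convert key (0, 3) (by simp [snakyCells]) (by simp [bw]) using 2 <;> (push_cast; ring)
    · refine Finset.mem_coe.mpr ?_
      convert key (1, 3) (by simp [snakyCells]) (by simp [bw]) using 2 <;> (push_cast; ring)
    · refine Finset.mem_coe.mpr ?_
      convert key (1, 4) (by simp [snakyCells]) (by simp [bw]) using 2 <;> (push_cast; ring)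
  · refine ⟨(((s % W : ℕ) : ℤ) + 0 - ox, ((s / W : ℕ) : ℤ) + 4 - oy), 1, -1, Or.inl rfl, Or.inr rfl,
      Or.inr ?_⟩
    intro p hp
    simp only [snaky, Finset.mem_insert, Finset.mem_singleton] at hp
    rcases hp with rfl | rfl | rfl | rfl | rfl | rfl
    · refine Finset.mem_coe.mpr ?_
      convert key (0, 4) (by simp [snakyCells]) (by simp [bw]) using 2 <;> (push_cast; ring)
    · refine Finset.mem_coe.mpr ?_
      convert key (0, 3) (by simp [snakyCells]) (by simp [bw]) using 2 <;> (push_cast; ring)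
    · refine Finset.mem_coe.mpr ?_
      convert key (0, 2) (by simp [snakyCells]) (by simp [bw]) using 2 <;> (push_cast; ring)
    · refine Finset.mem_coe.mpr ?_
      convert key (0, 1) (by simp [snakyCells]) (by simp [bw]) using 2 <;> (push_cast; ring)
    · refine Finset.mem_coe.mpr ?_
      convert key (1, 1) (by simp [snakyCells]) (by simp [bw]) using 2 <;> (push_cast; ring)
    · refine Finset.mem_coe.mpr ?_
      convert key (1, 0) (by simp [snakyCells]) (by simp [bw]) using 2 <;> (push_cast; ring)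
  · refine ⟨(((s % W : ℕ) : ℤ) + 1 - ox, ((s / W : ℕ) : ℤ) + 0 - oy), -1, 1, Or.inr rfl, Or.inl rfl,
      Or.inr ?_⟩
    intro p hp
    simp only [snaky, Finset.mem_insert, Finset.mem_singleton] at hp
    rcases hp with rfl | rfl | rfl | rfl | rfl | rfl
    · refine Finset.mem_coe.mpr ?_
      convert key (1, 0) (by simp [snakyCells]) (by simp [bw]) using 2 <;> (push_cast; ring)
    · refine Finset.mem_coe.mpr ?_
      convert key (1, 1) (by simp [snakyCells]) (by simp [bw]) using 2 <;> (push_cast; ring)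
    · refine Finset.mem_coe.mpr ?_
      convert key (1, 2) (by simp [snakyCells]) (by simp [bw]) using 2 <;> (push_cast; ring)
    · refine Finset.mem_coe.mpr ?_
      convert key (1, 3) (by simp [snakyCells]) (by simp [bw]) using 2 <;> (push_cast; ring)
    · refine Finset.mem_coe.mpr ?_
      convert key (0, 3) (by simp [snakyCells]) (by simp [bw]) using 2 <;> (push_cast; ring)
    · refine Finset.mem_coe.mpr ?_
      convert key (0, 4) (by simp [snakyCells]) (by simp [bw]) using 2 <;> (push_cast; ring)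
  · refine ⟨(((s % W : ℕ) : ℤ) + 1 - ox, ((s / W : ℕ) : ℤ) + 4 - oy), -1, -1, Or.inr rfl, Or.inr rfl,
      Or.inr ?_⟩
    intro p hp
    simp only [snaky, Finset.mem_insert, Finset.mem_singleton] at hp
    rcases hp with rfl | rfl | rfl | rfl | rfl | rfl
    · refine Finset.mem_coe.mpr ?_
      convert key (1, 4) (by simp [snakyCells]) (by simp [bw]) using 2 <;> (push_cast; ring)
    · refine Finset.mem_coe.mpr ?_
      convert key (1, 3) (by simp [snakyCells]) (by simp [bw]) using 2 <;> (push_cast; ring)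
    · refine Finset.mem_coe.mpr ?_
      convert key (1, 2) (by simp [snakyCells]) (by simp [bw]) using 2 <;> (push_cast; ring)
    · refine Finset.mem_coe.mpr ?_
      convert key (1, 1) (by simp [snakyCells]) (by simp [bw]) using 2 <;> (push_cast; ring)
    · refine Finset.mem_coe.mpr ?_
      convert key (0, 1) (by simp [snakyCells]) (by simp [bw]) using 2 <;> (push_cast; ring)
    · refine Finset.mem_coe.mpr ?_
      convert key (0, 0) (by simp [snakyCells]) (by simp [bw]) using 2 <;> (push_cast; ring)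


end Crest.Agent.Helper20.Snaky
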